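import Vale.Agent.P286EW.Tw1
import Vale.Agent.P286EN.Grp

/-!
# The normal form on the chart `b` of `SO_3`
-/

set_option linter.all false

namespace Vale.Agent.P286EW

open Matrix Vale.Agent.P286 Vale.Agent.P286E Vale.Agent.P286EN Vale.Agent.P286EB
open Vale.Agent.P286ER (On IsOb)

noncomputable section

attribute [-instance] HahnSeries.powerSeriesAlgebra

variable {A : Type} [CommRing A] [Algebra ℂ A] {N : ℕ} {E : Ell} {e : Rt E}

/-- Sections of the twist of the universal lattice with at most a simple pole. -/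
theorem col_tw {X Y P Q : Matrix (Fin N) (Fin N) A} (hp : MPt E X Y)
    (h1 : (X - ea e A • 1) * P = Y * Q)
    (h2 : Y * P = (X * X + ea e A • X + (ea e A ^ 2 + algebraMap ℂ A E.a) • 1) * Q) :
    Col (tw e 1 (U E X Y)) (sI (ea e A) • (rho X * cm P + sig E X Y * cm Q)) := by
  have hs := stab_lat (rho X) (sig E X Y)
  have c1 := col_lat_left (rho X) (sig E X Y)
  have c2 := col_lat_right (rho X) (sig E X Y)
  have k1 := congrArg cm h1
  have k2 := congrArg cm h2
  rw [cm_mul, cm_mul, cm_sub, cm_smul, cm_one] at k1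
  rw [cm_mul, cm_mul, cm_add, cm_add, cm_smul, cm_smul, cm_one, map_add, map_pow] at k2
  have e1 : (xs A • 1 - cm X) * cm P + cm Y * cm Q = uu e A • cm P := by
    rw [← k1, uu]
    simp only [sub_mul, smul_mul_assoc, one_mul]
    module
  have e2 : (xs A ^ 2 • 1 + xs A • cm X + cm (X * X + E.a • 1)) * cm Q - cm Y * cm P =
      uu e A • ((xs A • 1 + cm (X + ea e A • 1)) * cm Q) := by
    rw [k2, uu, cm_add, cm_add, cm_csmul, cm_smul, cm_one, cc]
    simp only [add_mul, smul_mul_assoc, one_mul]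
    module
  have e3 : ys E A • (rho X * cm P + sig E X Y * cm Q) =
      uu e A • (rho X * ((xs A • 1 + cm (X + ea e A • 1)) * cm Q) + sig E X Y * cm P) := by
    rw [smul_add, ← smul_mul_assoc, ← smul_mul_assoc, y_rho hp.comm, y_sig hp, smul_add,
      ← mul_smul_comm _ (rho X), ← mul_smul_comm _ (sig E X Y), ← e1, ← e2]
    simp only [mul_add, mul_sub, add_mul, sub_mul, mul_assoc]
    abel
  have a1 : Col (U E X Y) (sr (ea e A) • sI (ea e A) • (rho X * cm P + sig E X Y * cm Q)) := by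
    rw [smul_smul, sr_sI, one_smul]
    exact (c1.mul hs (ent_cm P)).add (c2.mul hs (ent_cm Q))
  have a2 : Col (U E X Y) ((ys E A * sI (ea e A)) • sI (ea e A) •
      (rho X * cm P + sig E X Y * cm Q)) := by
    have h3 : sI (ea e A) * sI (ea e A) * uu e A = 1 := by
      linear_combination (-sI (ea e A) ^ 2) * ss (A := A) e +
        (sr (ea e A) * sI (ea e A) + 1) * sr_sI (ea e A)
    rw [smul_smul, mul_assoc, mul_comm, mul_smul, e3, smul_smul, h3, one_smul]
    exact (c1.mul hs (((ent_one.smul xs_mem_Px).add (ent_cm _)).mul (ent_cm Q))).add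
      (c2.mul hs (ent_cm P))
  exact fun j => mem_tw1.2 ⟨a1 j, a2 j⟩

theorem ord_tw (X Y P Q : Matrix (Fin N) (Fin N) A) :
    OrdM (-1) (sI (ea e A) • (rho X * cm P + sig E X Y * cm Q)) :=
  (OrdM.smul (b := -2) (ord_sI _) ((((lead_rho X).ord.mul (lead_cm P).ord).mono (by norm_num)).add
    (((lead_sig E X Y).ord.mul (lead_cm Q).ord).mono (by norm_num)))).mono (by norm_num)

theorem two_ls (w : Ls A) (h : 2 * w = 0) : w = 0 := two_mul_eq_zero (io A) h

theorem trace_cm (Z : Matrix (Fin N) (Fin N) A) : trace (cm Z) = HahnSeries.C (trace Z) :=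
  (AddMonoidHom.map_trace (HahnSeries.C : A →+* Ls A) Z).symm

theorem adj_cm (Z : Matrix (Fin N) (Fin N) A) : (cm Z).adjugate = cm Z.adjugate :=
  (RingHom.map_adjugate (HahnSeries.C : A →+* Ls A) Z).symm

theorem ord_xc (c : A) : Ord (-2) (xs A - HahnSeries.C c) ∧
    (xs A - HahnSeries.C c).coeff (-2) = 1 :=
  ⟨ord_xs.sub ((Ord.C c).mono (by norm_num)), by
    rw [HahnSeries.coeff_sub, xs_coeff, Ord.C c (-2) (by norm_num), sub_zero]⟩

section

variable {x : A} {X : Matrix (Fin 3) (Fin 3) A} {ξ : Fin 3 → A}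

theorem y3_skew (ξ : Fin 3 → A) : (y3 ξ)ᵀ = -y3 ξ := h3_skew ξ

theorem det_Vv (h : Vv e x (X - ea e A • 1) ξ) (p q r : Ls A) :
    (p • (1 : Matrix _ _ (Ls A)) + q • cm (X - ea e A • 1) + r • cm (y3 ξ)).det =
      p * ((p + q * HahnSeries.C (x - ea e A)) ^ 2 -
        r ^ 2 * HahnSeries.C (gv e x) * HahnSeries.C (x - ea e A)) :=
  det_pqr two_ls (by rw [cm_transpose, h.sym]) (by rw [← cm_mul, h.sq, cm_smul])
    (by rw [trace_cm, h.tr, map_mul, map_ofNat])
    (by rw [adj_cm, h.adj, cm_sub, cm_smul, cm_smul, cm_one, map_pow])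
    (by rw [cm_transpose, y3_skew, cm_neg]) (by rw [← cm_mul, h.yy, cm_smul]) p q r

theorem det_rho_Vv (h : Vv e x (X - ea e A • 1) ξ) :
    (rho X).det = sr (ea e A) * (xs A - HahnSeries.C x) := by
  have h1 := det_Vv h (uu e A) (-1) 0
  have h2 : uu e A • (1 : Matrix _ _ (Ls A)) + (-1 : Ls A) • cm (X - ea e A • 1) +
      (0 : Ls A) • cm (y3 ξ) = rho X * rho X := by
    rw [rho_mul_rho, cm_sub, cm_smul, cm_one, uu]
    module
  rw [h2, det_mul, map_sub] at h1
  have h3 : ((rho X).det - sr (ea e A) * (xs A - HahnSeries.C x)) *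
      ((rho X).det + sr (ea e A) * (xs A - HahnSeries.C x)) = 0 := by
    have h4 := ss (A := A) e
    rw [uu] at h1 h4
    linear_combination h1 - (xs A - HahnSeries.C x) ^ 2 * h4
  have l1 := (lead_rho X).det
  have o2 : Ord (-3) (sr (ea e A) * (xs A - HahnSeries.C x)) := (ord_sr _).mul' (ord_xc x).1
  have l2 : (sr (ea e A) * (xs A - HahnSeries.C x)).coeff (-3) = 1 :=
    (coeff_mul_lead (ord_sr _) (ord_xc x).1).trans (by rw [sr_coeff, (ord_xc x).2, one_mul])
  refine sub_eq_zero.1 (eq_zero_of_mul_lead (n := -3) (Ord.add (l1.1.mono (by norm_num)) o2) ?_ h3)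
  rw [HahnSeries.coeff_add, l2, show (rho X).det.coeff (-3) = 1 from l1.2.trans det_one,
    one_add_one_eq_two]
  exact unit_two

/-- The matrix `g(X)`. -/
def gX (e : Rt E) (x : A) (X : Matrix (Fin 3) (Fin 3) A) : Matrix (Fin 3) (Fin 3) A :=
  da e A • 1 + (x - ea e A + 3 * ea e A) • (X - ea e A • 1)

theorem gX_eq (h : Vv e x (X - ea e A • 1) ξ) :
    X * X + ea e A • X + (ea e A ^ 2 + algebraMap ℂ A E.a) • 1 = gX e x X := by
  have h1 := h.sq
  rw [gX, add_smul (x - ea e A), ← h1, da_eq]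
  simp only [mul_sub, sub_mul, smul_mul_assoc, mul_smul_comm, one_mul, mul_one]
  module

theorem sec_Vv (hp : MPt E X (y3 ξ)) (h : Vv e x (X - ea e A • 1) ξ) (k : A) :
    ∃ S, Col (tw e 1 (U E X (y3 ξ))) S ∧ OrdM (-1) S ∧
      S.det = (da e A * (gv e x - k ^ 2 * (x - ea e A))) • thM e .b x := by
  have hc : y3 ξ * (X - ea e A • 1) = (x - ea e A) • y3 ξ := by
    rw [← h.zy, mul_sub, sub_mul, hp.comm, mul_smul_comm, smul_mul_assoc, mul_one, one_mul]
  have h1 : (X - ea e A • 1) * (gX e x X + k • y3 ξ) = y3 ξ * (y3 ξ + k • (X - ea e A • 1)) := by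
    rw [gX]
    simp only [mul_add, mul_smul_comm, mul_one, h.sq, h.zy, h.yy, hc, gv_eq]
    module
  have h2 : y3 ξ * (gX e x X + k • y3 ξ) = gX e x X * (y3 ξ + k • (X - ea e A • 1)) := by
    rw [gX]
    simp only [mul_add, add_mul, mul_smul_comm, smul_mul_assoc, mul_one, one_mul, h.sq, h.zy, h.yy,
      hc, gv_eq]
    module
  refine ⟨_, col_tw hp h1 (h2.trans (by rw [gX_eq h])), ord_tw _ _ _ _, ?_⟩
  have k1 := congrArg cm h1
  rw [cm_mul, cm_mul, cm_sub, cm_smul, cm_one] at k1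
  have h3 : rho X * (rho X * cm (gX e x X + k • y3 ξ) + sig E X (y3 ξ) *
      cm (y3 ξ + k • (X - ea e A • 1))) = (uu e A * HahnSeries.C (da e A)) • 1 +
      (uu e A * HahnSeries.C (x - ea e A + 3 * ea e A) + HahnSeries.C k * ys E A) •
        cm (X - ea e A • 1) + (ys E A + HahnSeries.C k * uu e A) • cm (y3 ξ) := by
    rw [mul_add, ← mul_assoc, ← mul_assoc, rho_mul_rho, rho_sig hp.comm, add_mul, ← k1, uu]
    simp only [sub_mul, smul_mul_assoc, one_mul]
    simp only [gX, cm_add, cm_smul, cm_one]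
    module
  have h4 := congrArg det h3
  rw [det_Vv h, det_mul, det_rho_Vv h] at h4
  rw [det_smul, Fintype.card_fin, ← C_mul, thM]
  refine sub_eq_zero.1 (eq_zero_of_mul_lead (ord_xc x).1 ((ord_xc x).2 ▸ isUnit_one) ?_)
  have g0 := congrArg (HahnSeries.C : A →+* Ls A) (gv_eq e x)
  have hy := ys_sq' (A := A) e
  have hs := ss (A := A) e
  have hi := sr_sI (ea e A)
  rw [gg] at hy
  rw [uu] at hy hs h4
  simp only [map_add, map_sub, map_mul, map_pow, map_ofNat] at g0 h4 ⊢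
  rw [g0] at h4 ⊢
  generalize (rho X * cm (gX e x X + k • y3 ξ) + sig E X (y3 ξ) *
      cm (y3 ξ + k • (X - ea e A • 1))).det = D at h4 ⊢
  generalize (HahnSeries.C (ea e A) : Ls A) = z at *
  generalize (HahnSeries.C (da e A) : Ls A) = d at *
  generalize (HahnSeries.C x : Ls A) = c at *
  generalize (HahnSeries.C k : Ls A) = κ at *
  generalize xs A = t at *
  generalize ys E A = y at *
  generalize sr (ea e A) = s at *
  generalize sI (ea e A) = i at *
  have h5 : s * (t - c) * D = (t - z) ^ 2 * (d * ((c - z) ^ 2 + 3 * z * (c - z) + d -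
      κ ^ 2 * (c - z)) * (d - (c - z) * (t - z))) * (t - c) := by
    rw [h4]
    linear_combination ((t - z) * d * (c - z) * (κ ^ 2 * (c - z) -
      ((c - z) ^ 2 + 3 * z * (c - z) + d))) * hy
  have h6 : i ^ 4 * (t - z) ^ 2 = 1 := by
    rw [← hs]
    linear_combination ((s * i) ^ 3 + (s * i) ^ 2 + s * i + 1) * hi
  linear_combination i ^ 4 * h5 - i ^ 3 * D * (t - c) * hi + (d * ((c - z) ^ 2 + 3 * z * (c - z) + d -
      κ ^ 2 * (c - z)) * (d - (c - z) * (t - z))) * (t - c) * h6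

end

theorem coeff_C_zero (c : A) : (HahnSeries.C c : Ls A).coeff 0 = c :=
  HahnSeries.coeff_single_same _ _

theorem thM_zero (x : A) : (thM e .b x).coeff 0 = da e A + (x - ea e A) * ea e A := by
  rw [thM, mul_sub, ← map_mul, C_mul, HahnSeries.coeff_sub, HahnSeries.coeff_sub,
    HahnSeries.coeff_smul, coeff_C_zero, coeff_C_zero,
    show (xs A).coeff 0 = 0 from HahnSeries.coeff_single_of_ne (by norm_num), smul_zero]
  ring

theorem thM_two (x : A) : (thM e .b x).coeff (-2) = -(x - ea e A) := by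
  rw [thM, C_mul, HahnSeries.coeff_sub, HahnSeries.coeff_smul, (ord_xc _).2,
    Ord.C _ (-2) (by norm_num), smul_eq_mul]
  ring

theorem fh_smul (c : A) (θ : Ls A) : fh E (c • θ) = c ^ 3 * fh E θ := by
  simp only [fh, HahnSeries.coeff_smul, smul_eq_mul]
  ring

theorem fh_thM (x : A) : fh E (thM e .b x) = da e A ^ 2 * gv e x := by
  rw [fh, thM_zero, thM_two, gv_eq, da_eq]
  linear_combination (x - ea e A) ^ 3 * ea_rt (A := A) e

theorem fh_fac (θ : Ls A) : fh E θ = (θ.coeff 0 + θ.coeff (-2) * ea e A) * (θ.coeff 0 ^ 2 -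
    ea e A * θ.coeff 0 * θ.coeff (-2) + (ea e A ^ 2 + algebraMap ℂ A E.a) * θ.coeff (-2) ^ 2) := by
  rw [fh]
  linear_combination (-θ.coeff (-2) ^ 3) * ea_rt (A := A) e

/-- The value at the point of order two. -/
def lam (e : Rt E) (A : Type) [CommRing A] [Algebra ℂ A] : Ls A →ₗ[A] A where
  toFun w := w.coeff 0 + w.coeff (-2) * ea e A
  map_add' u w := by
    rw [HahnSeries.coeff_add, HahnSeries.coeff_add]
    ring
  map_smul' c w := by
    rw [HahnSeries.coeff_smul, HahnSeries.coeff_smul, RingHom.id_apply, smul_eq_mul, smul_eq_mul,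
      smul_eq_mul]
    ring

theorem lam_thM (x : A) : lam e A (thM e .b x) = da e A := by
  change (thM e .b x).coeff 0 + (thM e .b x).coeff (-2) * ea e A = _
  rw [thM_zero, thM_two]
  ring

theorem gv_unit {θ : Ls A} {x c : A} (hθ : IsUnit (fh E θ))
    (h : da e A ^ 2 • thM e .b x = c • θ) : IsUnit (gv e x) := by
  have h1 := congrArg (lam e A) h
  rw [map_smul, map_smul, lam_thM, smul_eq_mul, smul_eq_mul] at h1
  have hc : IsUnit c :=
    isUnit_of_mul_isUnit_left (h1 ▸ ((da_unit e).pow 2).mul (da_unit (A := A) e))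
  have h2 := congrArg (fh E) h
  rw [fh_smul, fh_smul, fh_thM] at h2
  exact isUnit_of_mul_isUnit_right (isUnit_of_mul_isUnit_right (h2 ▸ (hc.pow 3).mul hθ))

theorem core (hC : CRD) (hP : PL) (hB : CPB) (hV : VOL) (v : ℕ × Fin 3 → Fin 3 → Ls A)
    (M : Submodule A (Fin 3 → Ls A)) (hs : Stab (Rg E A) M) (hf : Frm E 1 M)
    (vol : ∀ m : Fin 3 → Fin 3 → Ls A, (∀ i, m i ∈ M) → E.Reg (of m).det) (hv : Adm v)
    (hM : LinearMap.range (lin v) = M) (hu : IsUnit (fh E (Th v))) :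
    ∃ (a : Matrix (Fin 3) (Fin 3) (Ls A)) (x : A) (ξ : Fin 3 → A), InG SO3 a ∧ IntM a ∧
      ξ ⬝ᵥ ξ = P286EB.fv E x ∧ IsUnit (gv e x) ∧
      M = (tw e 1 (U E (ea e A • 1 + Ring.inverse (gv e x) • (y3 ξ * y3 ξ)) (y3 ξ))).map (act a) := by
  have h1 : IsUnit (lam e A (Th v)) := isUnit_of_mul_isUnit_left (fh_fac (e := e) (Th v) ▸ hu)
  obtain ⟨a, X, ξ, ha, hg, hX, hp, h2⟩ :=
    nf_three (stab_tw1 hs) (hB E e A 3 le_rfl v M hv hM hs vol h1) (frm_tw1 (e := e) hf)
  have hd : a.det = 1 := hg.det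
  have hi : a.adjugate * a = 1 := hg.adj_mul
  have h3 : M = (tw e 1 (U E X (y3 ξ))).map (act a) := by
    rw [← tw_tw (e := e) hs, h2, tw_map hi]
    rfl
  obtain ⟨x, hx⟩ := (hV E e A X ξ hX hp).1 fun m hm => by
    have h4 := inJ_tw1 (e := e) vol (fun i => a *ᵥ m i) fun i => h2 ▸ ⟨m i, hm i, rfl⟩
    have h5 : (of fun i => a *ᵥ m i) = of m * aᵀ := by
      ext1 i j
      exact dotProduct_comm (a j) (m i)
    rwa [h5, det_mul, det_transpose, hd, mul_one] at h4
  obtain ⟨c, hc⟩ := h1.exists_left_inv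
  have h4 := (hC E A 3 v M hv hM vol (c • lam e A) hc).1
  have h5 : ∀ k : A, ∃ c : A,
      (da e A * (gv e x - k ^ 2 * (x - ea e A))) • thM e .b x = c • Th v := fun k => by
    obtain ⟨S, s1, s2, s3⟩ := sec_Vv hp hx k
    obtain ⟨c, hc⟩ := hP A 3 v M hv hM h4 (a * S) (fun j => h3 ▸ ⟨_, s1 j, rfl⟩)
      ((ha.ord.mul s2).mono (by norm_num))
    exact ⟨c, by rw [← hc, det_mul, hd, one_mul, s3]⟩
  obtain ⟨c0, e0⟩ := h5 0
  obtain ⟨c1, e1⟩ := h5 1
  have h6 : IsUnit (gv e x) := gv_unit hu (c := c0 - (x - ea e A + 3 * ea e A) * (c0 - c1)) (by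
    rw [sub_smul, mul_smul, sub_smul, ← e0, ← e1, ← sub_smul, smul_smul, ← sub_smul, gv_eq]
    congr 1
    ring)
  refine ⟨a, x, ξ, hg, ha.ord, ?_, h6, ?_⟩
  · have h7 := congrArg trace hx.yy
    rw [show y3 ξ * y3 ξ = _ from rm_sq _ ξ, trace_sub, trace_smul, trace_smul, hx.tr, trace_one,
      trace_vecMulVec] at h7
    simp only [smul_eq_mul, Fintype.card_fin, Nat.cast_ofNat] at h7
    rw [fv_eq e]
    exact sub_eq_zero.1 (two_mul_eq_zero (algebraMap ℂ A) (by linear_combination h7))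
  · rw [hx.yy, smul_smul, Ring.inverse_mul_cancel _ h6, one_smul, add_sub_cancel]
    exact h3

/-- The normal form on the chart `b` of `SO_3`. -/
theorem nfo3b (hC : CRD) (hP : PL) (hB : CPB) (hV : VOL) : NFO SO3 .b := by
  intro E e A _ _ _ v M T ho hv hM hu
  obtain ⟨a, x, ξ, h1, h2, h3, h4, h5⟩ :=
    core (e := e) hC hP hB hV v M ho.reg (frm_SO3.2 ho.form) ho.vol hv hM hu
  refine ⟨a, x, ξ, 1, h1, h2, ⟨h3, fun _ => ⟨h4, rfl⟩, nofun, fun h => absurd rfl h⟩, ?_⟩
  rw [FM, cm_one]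
  exact h5

end

end Vale.Agent.P286EW
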