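import Vale.Agent.P286EB.IF
import Vale.Agent.P286EN.Adj

/-!
# The twist of a whole lattice by the line bundle of order two
-/

set_option linter.all false

namespace Vale.Agent.P286EW

open Matrix Vale.Agent.P286 Vale.Agent.P286E Vale.Agent.P286EN Vale.Agent.P286EB

noncomputable section

attribute [-instance] HahnSeries.powerSeriesAlgebra

section Det

variable {R : Type} [CommRing R]

theorem det_aff (Z : Matrix (Fin 3) (Fin 3) R) (p q : R) : (p • (1 : Matrix _ _ R) + q • Z).det =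
    p ^ 3 + p ^ 2 * q * trace Z + p * q ^ 2 * trace Z.adjugate + q ^ 3 * Z.det := by
  simp [det_fin_three, trace_fin_three, adjugate_fin_three]
  ring

theorem det_skew {S K : Matrix (Fin 3) (Fin 3) R} (hS : Sᵀ = S) (hK : Kᵀ = -K)
    (hd : ∀ i, K i i = 0) :
    2 * (S + K).det = 2 * S.det + 2 * trace (K * K * S) - trace (K * K) * trace S := by
  have s : ∀ i j, S j i = S i j := fun i j => congrFun (congrFun hS i) j
  have k : ∀ i j, K j i = -K i j := fun i j => congrFun (congrFun hK i) j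
  simp only [det_fin_three, trace_fin_three, Matrix.mul_apply, Fin.sum_univ_three,
    Matrix.add_apply, hd, s 0 1, s 0 2, s 1 2, k 0 1, k 0 2, k 1 2]
  ring

theorem det_pq {Z : Matrix (Fin 3) (Fin 3) R} {u : R} (sq : Z * Z = u • Z) (tr : trace Z = 2 * u)
    (adj : Z.adjugate = u ^ 2 • 1 - u • Z) (p q : R) :
    (p • (1 : Matrix _ _ R) + q • Z).det = p * (p + q * u) ^ 2 := by
  have h1 : Z.det = 0 := by
    have h := Matrix.mul_adjugate Z
    rw [adj, mul_sub, mul_smul_comm, mul_smul_comm, sq, mul_one, smul_smul, ← pow_two u,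
      sub_self] at h
    simpa using (congrFun (congrFun h 0) 0).symm
  rw [det_aff, h1, adj, trace_sub, trace_smul, trace_smul, trace_one, tr]
  simp only [smul_eq_mul, Fintype.card_fin, Nat.cast_ofNat]
  ring

theorem det_pqr (h2 : ∀ w : R, 2 * w = 0 → w = 0) {Z Y : Matrix (Fin 3) (Fin 3) R} {u g : R}
    (sym : Zᵀ = Z) (sq : Z * Z = u • Z) (tr : trace Z = 2 * u)
    (adj : Z.adjugate = u ^ 2 • 1 - u • Z) (sk : Yᵀ = -Y) (yy : Y * Y = g • Z) (p q r : R) :
    (p • (1 : Matrix _ _ R) + q • Z + r • Y).det = p * ((p + q * u) ^ 2 - r ^ 2 * g * u) := by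
  have hd : ∀ i, (r • Y) i i = 0 := fun i => by
    have h : Y i i = -Y i i := congrFun (congrFun sk i) i
    rw [Matrix.smul_apply, h2 (Y i i) (by linear_combination h), smul_zero]
  have h := det_skew (S := p • 1 + q • Z) (K := r • Y)
    (by rw [transpose_add, transpose_smul, transpose_smul, transpose_one, sym])
    (by rw [transpose_smul, sk, smul_neg]) hd
  rw [det_pq sq tr adj, smul_mul_smul_comm, yy] at h
  simp only [mul_add, smul_mul_assoc, mul_smul_comm, mul_one, sq, trace_add, trace_smul, tr,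
    trace_one, smul_eq_mul, Fintype.card_fin, Nat.cast_ofNat] at h
  exact sub_eq_zero.1 (h2 _ (by linear_combination h))

end Det

variable {A : Type} [CommRing A] [Algebra ℂ A] {N : ℕ} {E : Ell}

theorem sr_sq (c : A) : sr c * sr c = xs A - HahnSeries.C c := by
  have h := congrFun (congrFun (rho_mul_rho (N := 1) (of fun _ _ => c)) 0) 0
  rw [Matrix.mul_apply, Fin.sum_univ_one, Matrix.sub_apply, Matrix.smul_apply, one_apply_eq,
    smul_eq_mul, mul_one] at h
  exact h

theorem sr_sI (c : A) : sr c * sI c = 1 := by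
  have h := congrFun (congrFun (rho_mul_rhoI (N := 1) (of fun _ _ => c)) 0) 0
  rw [Matrix.mul_apply, Fin.sum_univ_one, one_apply_eq] at h
  exact h

theorem ord_sr (c : A) : Ord (-1) (sr c) := (lead_rho (N := 1) _).1 0 0

theorem sr_coeff (c : A) : (sr c).coeff (-1) = 1 :=
  ((lead_rho (N := 1) _).2 0 0).trans (one_apply_eq _)

theorem ord_sI (c : A) : Ord 1 (sI c) := (lead_rhoI (N := 1) _).1 0 0

variable (e : Rt E)

/-- The function `x - e`. -/
def uu (A : Type) [CommRing A] [Algebra ℂ A] : Ls A := xs A - HahnSeries.C (ea e A)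

/-- The function `g(x)`. -/
def gg (A : Type) [CommRing A] [Algebra ℂ A] : Ls A :=
  uu e A ^ 2 + 3 * HahnSeries.C (ea e A) * uu e A + HahnSeries.C (da e A)

theorem uu_mem : uu e A ∈ Px A := (Px A).sub_mem xs_mem_Px (C_mem_Px _)

theorem three_mem : (3 : Ls A) ∈ Px A := by
  have h := natCast_mem (Px A) 3
  rwa [Nat.cast_ofNat] at h

theorem gg_mem : gg e A ∈ Px A :=
  (Px A).add_mem ((Px A).add_mem ((Px A).pow_mem (uu_mem e) 2)
    ((Px A).mul_mem ((Px A).mul_mem three_mem (C_mem_Px _)) (uu_mem e))) (C_mem_Px _)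

theorem da_eq : da e A = 3 * ea e A ^ 2 + algebraMap ℂ A E.a := by
  rw [da, ea, Rt.d, map_add, map_mul, map_pow, map_ofNat]

theorem ea_rt : ea e A ^ 3 + algebraMap ℂ A E.a * ea e A + algebraMap ℂ A E.b = 0 := by
  have h := congrArg (algebraMap ℂ A) e.rt
  rwa [map_add, map_add, map_mul, map_pow, map_zero] at h

theorem da_unit : IsUnit (da e A) := (IsUnit.mk0 _ e.d_ne).map _

theorem gv_eq (x : A) : gv e x = (x - ea e A) ^ 2 + 3 * ea e A * (x - ea e A) + da e A := by
  rw [gv, da_eq]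
  ring

theorem fv_eq (x : A) : fv E x = (x - ea e A) * gv e x := by
  rw [fv, gv]
  linear_combination ea_rt (A := A) e

theorem ys_sq' : ys E A * ys E A = uu e A * gg e A := by
  have h1 := congrArg (HahnSeries.C : A →+* Ls A) (ea_rt (A := A) e)
  have h2 := congrArg (HahnSeries.C : A →+* Ls A) (da_eq (A := A) e)
  simp only [map_add, map_mul, map_pow, map_zero, map_ofNat] at h1 h2
  rw [ys_sq, gg, uu, h2, cc, cc]
  linear_combination h1

theorem ss : sr (ea e A) * sr (ea e A) = uu e A := sr_sq _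

theorem s_ys : sr (ea e A) * (ys E A * sI (ea e A)) = ys E A := by
  linear_combination ys E A * sr_sI (ea e A)

theorem ys_ys : ys E A * sI (ea e A) * (ys E A * sI (ea e A)) = gg e A := by
  have h := sr_sI (ea e A)
  linear_combination sI (ea e A) ^ 2 * ys_sq' (A := A) e - sI (ea e A) ^ 2 * gg e A * ss (A := A) e +
    gg e A * (sr (ea e A) * sI (ea e A) + 1) * h

/-- The functions `x - e` and `g(x)` generate the unit ideal. -/
theorem bez : ∃ α ∈ Px A, ∃ β ∈ Px A, α * uu e A + β * gg e A = 1 := by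
  obtain ⟨c, hc⟩ := (da_unit (A := A) e).exists_left_inv
  have h := congrArg (HahnSeries.C : A →+* Ls A) hc
  rw [map_mul, map_one] at h
  refine ⟨-(HahnSeries.C c * (uu e A + 3 * HahnSeries.C (ea e A))), (Px A).neg_mem ((Px A).mul_mem
    (C_mem_Px _) ((Px A).add_mem (uu_mem e) ((Px A).mul_mem three_mem (C_mem_Px _)))),
    HahnSeries.C c, C_mem_Px _, ?_⟩
  rw [gg]
  linear_combination h

theorem reg_of {w : Ls A} (h1 : E.Reg (uu e A * w)) (h2 : E.Reg (gg e A * w)) : E.Reg w := by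
  obtain ⟨α, hα, β, hβ, h⟩ := bez (A := A) e
  have h3 : w = α * (uu e A * w) + β * (gg e A * w) := by linear_combination (-w) * h
  rw [h3]
  exact (Rg E A).add_mem ((Rg E A).mul_mem (Px_le_Rg E hα) h1) ((Rg E A).mul_mem (Px_le_Rg E hβ) h2)

variable {e} {M : Submodule A (Fin N → Ls A)}

theorem mem_tw1 {m : Fin N → Ls A} :
    m ∈ tw e 1 M ↔ sr (ea e A) • m ∈ M ∧ (ys E A * sI (ea e A)) • m ∈ M := by
  simp only [tw, Submodule.mem_inf, Submodule.mem_comap, act_apply, sub_self, zero_mulVec,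
    smul_mulVec, one_mulVec, M.zero_mem, true_and]

theorem stab_tw1 {R : Subring (Ls A)} (h : Stab R M) : Stab R (tw e 1 M) := fun w hw m hm => by
  rw [mem_tw1] at hm ⊢
  rw [smul_comm _ w, smul_comm _ w]
  exact ⟨h w hw _ hm.1, h w hw _ hm.2⟩

theorem tw_tw (h : Stab (Rg E A) M) : tw e 1 (tw e 1 M) = M := by
  ext m
  simp only [mem_tw1, smul_smul]
  rw [ss, ys_ys, s_ys, mul_comm _ (sr _), s_ys]
  constructor
  · rintro ⟨⟨h1, -⟩, -, h2⟩
    obtain ⟨α, hα, β, hβ, h3⟩ := bez (A := A) e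
    rw [← one_smul (Ls A) m, ← h3, add_smul, mul_smul, mul_smul]
    exact M.add_mem (h α (Px_le_Rg E hα) _ h1) (h β (Px_le_Rg E hβ) _ h2)
  · intro hm
    exact ⟨⟨h _ (Px_le_Rg E (uu_mem e)) m hm, h _ (ys_mem_Rg E) m hm⟩, h _ (ys_mem_Rg E) m hm,
      h _ (Px_le_Rg E (gg_mem e)) m hm⟩

theorem mem_map_act {a b : Matrix (Fin N) (Fin N) (Ls A)} (h : b * a = 1) {m : Fin N → Ls A} :
    m ∈ M.map (act a) ↔ b *ᵥ m ∈ M := by
  constructor
  · rintro ⟨z, hz, rfl⟩
    rwa [act_apply, mulVec_mulVec, h, one_mulVec]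
  · intro hm
    exact ⟨_, hm, by rw [act_apply, mulVec_mulVec, mul_eq_one_comm.1 h, one_mulVec]⟩

theorem tw_map {a b : Matrix (Fin N) (Fin N) (Ls A)} (h : b * a = 1) :
    tw e 1 (M.map (act a)) = (tw e 1 M).map (act a) := by
  ext m
  simp only [mem_tw1, mem_map_act h, mulVec_smul]

theorem frm_tw1 {F : Matrix (Fin N) (Fin N) A} (h : Frm E F M) : Frm E F (tw e 1 M) :=
  fun m hm m' hm' => by
  rw [mem_tw1] at hm hm'
  have h1 := h _ hm.1 _ hm'.1
  have h2 := h _ hm.2 _ hm'.2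
  rw [mulVec_smul, smul_dotProduct, dotProduct_smul, smul_smul, smul_eq_mul] at h1 h2
  rw [ss] at h1
  rw [ys_ys] at h2
  exact reg_of e h1 h2

theorem det_rows (c : Fin N → Ls A) (m : Fin N → Fin N → Ls A) :
    (of fun i => c i • m i).det = (∏ i, c i) * (of m).det := det_mul_column c (of m)

theorem inJ_tw1 {M : Submodule A (Fin 3 → Ls A)}
    (h : ∀ m : Fin 3 → Fin 3 → Ls A, (∀ i, m i ∈ M) → E.Reg (of m).det)
    (m : Fin 3 → Fin 3 → Ls A) (hm : ∀ i, m i ∈ tw e 1 M) : InJ e (of m).det := by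
  have key : ∀ c : Fin 3 → Ls A, (∀ i, c i = sr (ea e A) ∨ c i = ys E A * sI (ea e A)) →
      E.Reg (c 0 * c 1 * c 2 * (of m).det) := fun c hc => by
    rw [← Fin.prod_univ_three, ← det_rows]
    refine h _ fun i => ?_
    rcases hc i with h1 | h1 <;> rw [h1]
    · exact (mem_tw1.1 (hm i)).1
    · exact (mem_tw1.1 (hm i)).2
  have k := fun (s t : Ls A) (hs : s = sr (ea e A) ∨ s = ys E A * sI (ea e A))
    (ht : t = sr (ea e A) ∨ t = ys E A * sI (ea e A)) => key ![s, s, t] fun i => by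
      fin_cases i
      · exact hs
      · exact hs
      · exact ht
  refine ⟨reg_of e ?_ ?_, reg_of e ?_ ?_⟩
  · rw [← ss, ← mul_assoc]
    exact k _ _ (Or.inl rfl) (Or.inl rfl)
  · rw [← ys_ys, ← mul_assoc]
    exact k _ _ (Or.inr rfl) (Or.inl rfl)
  · rw [← ss, ← mul_assoc]
    exact k _ _ (Or.inl rfl) (Or.inr rfl)
  · rw [← ys_ys, ← mul_assoc (ys E A * sI (ea e A) * (ys E A * sI (ea e A)))]
    exact k _ _ (Or.inr rfl) (Or.inr rfl)

end

end Vale.Agent.P286EW
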